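import Vale.Agent.P260.R3.H149.Gap
import Vale.Agent.P260.R2.H335.Lim

/-!
# P260: limits of nearly volume nonincreasing maps in a homotopy invariant class

The limit argument is due to helper335.
-/

set_option autoImplicit false
set_option linter.all false

namespace Vale.Agent.P260.R3.H149

open Metric Set Topology MeasureTheory Filter
open Vale.Agent.P260

/-- **(5)** uniformly Hölder maps with homotopy sections, nearly volume nonincreasing -/
theorem lim_class {n : ℕ} {M N : Type*} [MetricSpace M] [CompactSpace M] [MetricSpace N]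
    [CompactSpace N] [ChartedSpace (EuclideanSpace ℝ (Fin n)) N] [MeasurableSpace M]
    [BorelSpace M] [MeasurableSpace N] [BorelSpace N] (hn : 0 < n) (P : C(M, N) → Prop)
    (hP : SectionClass P) (μ : Measure M) (ν : Measure N) {K α : NNReal}
    (hα : (n : ℝ) < n * α + 1) (hα0 : 0 < α) (hlow : LowerDensity n μ) (hup : UpperDensity n ν)
    (htot : μ univ ≤ ν univ)
    (hF : ∀ ε : ℝ, 0 < ε → ∃ f : C(M, N), P f ∧ HolderWith K α f ∧
      ∀ A : Set M, IsCompact A → ν (f '' A) ≤ μ A + ENNReal.ofReal ε) :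
    ∃ e : M ≃ₜ N, P (e : C(M, N)) := by
  have hα' : (0 : ℝ) < α := hα0
  have hνf : IsFiniteMeasure ν := ⟨lt_top_iff_ne_top.2 (fin_of_up hup)⟩
  have hμf : IsFiniteMeasure μ := ⟨htot.trans_lt (measure_lt_top ν univ)⟩
  have hμp : μ.IsOpenPosMeasure := ⟨pos_of_low hlow⟩
  have hF' : ∀ k : ℕ, ∃ (f : C(M, N)) (g : C(N, M)), P f ∧
      (f.comp g).Homotopic (ContinuousMap.id N) ∧
      (∀ x x', dist (f x) (f x') ≤ K * dist x x' ^ (α : ℝ)) ∧
      ∀ A : Set M, IsCompact A → ν (f '' A) ≤ μ A + ENNReal.ofReal (1 / ((k : ℝ) + 1)) := by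
    intro k
    obtain ⟨f, h1, h2, h3⟩ := hF (1 / ((k : ℝ) + 1)) (by positivity)
    obtain ⟨g, hg⟩ := hP.2 f h1
    exact ⟨f, g, h1, hg, fun x x' => h2.dist_le x x', h3⟩
  choose F G hFP hFG hhol hvol using hF'
  obtain ⟨f, hf, φ, hφ, hlim⟩ := (H335.holder_compact (M := M) (N := N) (L := (K : ℝ))
    (α := (α : ℝ)) hα').tendsto_subseq (x := F) (fun k => hhol k)
  have hlim' : ∀ ε > 0, ∀ᶠ k in atTop, ∀ x, dist (F (φ k) x) (f x) < ε := by
    intro ε hε
    have h1 := (Metric.tendsto_nhds.1 hlim) ε hε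
    filter_upwards [h1] with k hk x
    exact (ContinuousMap.dist_apply_le_dist x).trans_lt hk
  have he : Tendsto (fun k => ENNReal.ofReal (1 / ((φ k : ℝ) + 1))) atTop (𝓝 0) := by
    have h1 := tendsto_one_div_add_atTop_nhds_zero_nat (𝕜 := ℝ)
    have h2 := (ENNReal.continuous_ofReal.tendsto 0).comp (h1.comp hφ.tendsto_atTop)
    rw [ENNReal.ofReal_zero] at h2
    exact h2
  -- the limit is in the class
  obtain ⟨η, hη, hcl⟩ := H815.close_homotopic (n := n) (N := N)
  obtain ⟨k, hk⟩ := (hlim' η hη).exists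
  have hfP : P f := hP.1 _ _ (hFP (φ k)) (hcl M (F (φ k)) f hk)
  obtain ⟨g, hg⟩ := hP.2 f hfP
  have hsurj : Function.Surjective f := surj_met hn f g hg
  have hconn : ∀ y, IsPreconnected (f ⁻¹' {y}) := fun y =>
    H335.lim_conn (n := n) hn (fun k => F (φ k)) (fun k => G (φ k)) (fun k => hFG _) f hlim' he
      (fun k => hvol _) htot y
  have hle : ∀ y r, 0 < r → μ (f ⁻¹' closedBall y (r / 2)) ≤ ν (closedBall y r) := by
    intro y r hr
    have h1 : ∀ᶠ k in atTop, μ (f ⁻¹' closedBall y (r / 2)) ≤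
        ν (closedBall y r) + ENNReal.ofReal (1 / ((φ k : ℝ) + 1)) := by
      filter_upwards [hlim' (r / 2) (half_pos hr)] with k hk
      refine le_trans (measure_mono ?_) (H335.pre_le (F (φ k)).continuous
        (surj_met hn (F (φ k)) (G (φ k)) (hFG (φ k))) (hvol (φ k)) htot isClosed_closedBall)
      intro x hx
      have h2 : dist (f x) y ≤ r / 2 := hx
      show dist (F (φ k) x) y ≤ r
      have h3 := dist_triangle (F (φ k) x) (f x) y
      have h4 := hk x
      linarith
    have h2 : Tendsto (fun k => ν (closedBall y r) + ENNReal.ofReal (1 / ((φ k : ℝ) + 1))) atTop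
        (𝓝 (ν (closedBall y r) + 0)) := tendsto_const_nhds.add he
    rw [add_zero] at h2
    exact ge_of_tendsto h2 h1
  have hinj : Function.Injective f := by
    intro a b hab
    refine sub_of_density (n := n) μ hf hα hα0 (hconn (f b)) (fun x _ => hlow x) ?_ hab rfl
    obtain ⟨C, r₀, hr₀, h⟩ := hup (f b)
    refine ⟨C * 3 ^ n, r₀ / 3, by positivity, fun r hr hrlt => ?_⟩
    have h1 : μ (f ⁻¹' ball (f b) r) ≤ μ (f ⁻¹' closedBall (f b) (2 * r / 2)) := by
      refine measure_mono (preimage_mono ?_)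
      rw [show 2 * r / 2 = r by ring]
      exact ball_subset_closedBall
    have h2 : ν (closedBall (f b) (2 * r)) ≤ ν (ball (f b) (3 * r)) :=
      measure_mono (closedBall_subset_ball (by linarith))
    refine h1.trans ((hle (f b) (2 * r) (by linarith)).trans (h2.trans
      ((h (3 * r) (by linarith) (by linarith)).trans ?_)))
    rw [mul_pow]
    refine ENNReal.ofReal_le_ofReal (le_of_eq (by ring))
  have hh : IsHomeomorph f :=
    isHomeomorph_iff_continuous_bijective.2 ⟨f.continuous, hinj, hsurj⟩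
  refine ⟨hh.homeomorph, ?_⟩
  have : ((hh.homeomorph : M ≃ₜ N) : C(M, N)) = f := by
    ext x
    rfl
  rw [this]
  exact hfP

end Vale.Agent.P260.R3.H149
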