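import Vale.Agent.P260.R3.H149.Cls
import Vale.Agent.P260.R3.H283.Bilip

/-!
# P260: bi-Lipschitz form
-/

set_option autoImplicit false
set_option linter.all false

namespace Vale.Agent.P260.R3.H149

open Metric Set Topology MeasureTheory Filter
open Vale.Agent.P260

/-- **(5)** uniform densities and linear local connectedness: the inverse is Lipschitz -/
theorem bilip_metric {M N : Type*} {n : ℕ} [MetricSpace M] [CompactSpace M]
    [MeasurableSpace M] [BorelSpace M]
    [MetricSpace N] [CompactSpace N]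
    [ChartedSpace (EuclideanSpace ℝ (Fin n)) N] [MeasurableSpace N] [BorelSpace N]
    (hn : 0 < n) (f : C(M, N)) (g : C(N, M))
    (hfg : (f.comp g).Homotopic (ContinuousMap.id N))
    (μ : Measure M) (ν : Measure N)
    (hle : ∀ A, IsCompact A → ν (f '' A) ≤ μ A) (htot : μ univ ≤ ν univ)
    {K : NNReal} (hf : LipschitzWith K f) {c C r₀ L : ℝ} (hc : 0 < c) (hr₀ : 0 < r₀)
    (hlow : ∀ x r, 0 < r → r < r₀ → ENNReal.ofReal (c * r ^ n) ≤ μ (ball x r))
    (hup : ∀ y r, 0 < r → r < r₀ → ν (ball y r) ≤ ENNReal.ofReal (C * r ^ n))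
    (hllc : ∀ y y' : N, ∃ S : Set N, IsConnected S ∧ y ∈ S ∧ y' ∈ S ∧
      S ⊆ closedBall y (L * dist y y')) :
    ∃ (e : M ≃ₜ N) (K' : NNReal), (e : C(M, N)) = f ∧ LipschitzWith K' e.symm := by
  have hh : IsHomeomorph f := measure_metric hn f g hfg μ ν hle htot (α := 1) (by simp) one_pos
    (holderWith_one.2 hf) (fun x => ⟨c, hc, r₀, hr₀, hlow x⟩) (fun y => ⟨C, r₀, hr₀, hup y⟩)
  have hpos : ∀ U : Set M, IsOpen U → U.Nonempty → μ U ≠ 0 := by
    rintro U hU ⟨x, hx⟩
    obtain ⟨s, hs, hsU⟩ := Metric.isOpen_iff.1 hU x hx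
    obtain ⟨r, hr, hrlt⟩ := exists_between (lt_min hs hr₀)
    have h1 := hlow x r hr (hrlt.trans_le (min_le_right _ _))
    have h2 : μ (ball x r) ≤ μ U :=
      measure_mono ((ball_subset_ball (hrlt.trans_le (min_le_left _ _)).le).trans hsU)
    have h3 : 0 < ENNReal.ofReal (c * r ^ n) := ENNReal.ofReal_pos.2 (by positivity)
    exact (h3.trans_le (h1.trans h2)).ne'
  have hloc : IsLocallyFiniteMeasure ν := by
    refine ⟨fun y => ?_⟩
    obtain ⟨r, hr, hrlt⟩ := exists_between hr₀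
    exact ⟨ball y r, ball_mem_nhds y hr, (hup y r hr hrlt).trans_lt ENNReal.ofReal_lt_top⟩
  have hfin : ν univ ≠ ⊤ := (isCompact_univ (X := N)).measure_lt_top.ne
  obtain ⟨hmap, -⟩ := measure_top hn f g hfg μ ν hpos hle htot hfin
  obtain ⟨K', hK'⟩ := H283.bilip μ hh.homeomorph (K := K) hf hc hr₀ hlow
    (fun y r hr hrlt => by
      have h1 : μ (hh.homeomorph ⁻¹' ball y r) = ν (ball y r) := by
        rw [← hmap, Measure.map_apply f.continuous.measurable isOpen_ball.measurableSet]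
        rfl
      rw [h1]
      exact hup y r hr hrlt) (L := |L| + 1) (by positivity) (fun y y' hyy' => by
      obtain ⟨S, hS, h1, h2, h3⟩ := hllc y y'
      refine ⟨S, hS, h1, h2, fun z hz => mem_ball.2 ?_⟩
      have h4 := mem_closedBall.1 (h3 hz)
      have h5 : 0 < dist y y' := dist_pos.2 hyy'
      have h6 : L * dist y y' ≤ |L| * dist y y' :=
        mul_le_mul_of_nonneg_right (le_abs_self L) h5.le
      linarith)
  refine ⟨hh.homeomorph, K', ?_, hK'⟩
  ext x
  rfl

end Vale.Agent.P260.R3.H149
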