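import Vale.Agent.P260.R3.H149.Homeo
import Vale.Agent.P260.R3.H815.Close

/-!
# P260: the gap theorem
-/

set_option autoImplicit false
set_option linter.all false

namespace Vale.Agent.P260.R3.H149

open Metric Set Topology MeasureTheory Filter
open Vale.Agent.P260

universe u v

section Three

variable {M N : Type*} {n : ℕ}

/-- a manifold of positive dimension has two points -/
theorem exists_ne [TopologicalSpace N] [ChartedSpace (EuclideanSpace ℝ (Fin n)) N] (hn : 0 < n)
    (y : N) : ∃ y' : N, y' ≠ y := by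
  obtain ⟨β, hβ, -, -⟩ := exists_chart (n := n) y Filter.univ_mem
  by_contra hcon
  push Not at hcon
  have h1 : β 0 = β (fun _ => 1) := by rw [hcon (β 0), hcon (β _)]
  have h2 := congrFun (hβ.injective h1) ⟨0, hn⟩
  simp at h2

/-- **(3)** the gap theorem, in the form of a limit, for a homotopy invariant class `P` of maps
with homotopy sections -/
theorem gap [MetricSpace M] [CompactSpace M] [MeasurableSpace M] [BorelSpace M]
    [MetricSpace N] [CompactSpace N]
    [ChartedSpace (EuclideanSpace ℝ (Fin n)) N] [MeasurableSpace N] [BorelSpace N]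
    (hn : 0 < n) (P : C(M, N) → Prop)
    (hP : ∀ f f' : C(M, N), P f → f.Homotopic f' → P f')
    (hsec : ∀ f : C(M, N), P f → ∃ g : C(N, M), (f.comp g).Homotopic (ContinuousMap.id N))
    (hlow : LowerDensity n (Measure.hausdorffMeasure (n : ℝ) : Measure M))
    (hup : UpperDensity n (Measure.hausdorffMeasure (n : ℝ) : Measure N))
    (hinf : ∀ ε : ℝ, 0 < ε → ∃ (f' : C(M, N)) (K : NNReal), P f' ∧
      LipschitzWith K f' ∧ (K : ENNReal) ^ n * Measure.hausdorffMeasure (n : ℝ) (univ : Set M) ≤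
        ENNReal.ofReal (1 + ε) * Measure.hausdorffMeasure (n : ℝ) (univ : Set N)) :
    ∃ (e : M ≃ₜ N) (K : NNReal), P (e : C(M, N)) ∧ LipschitzWith K e ∧
      (K : ENNReal) ^ n * Measure.hausdorffMeasure (n : ℝ) (univ : Set M) =
        Measure.hausdorffMeasure (n : ℝ) (univ : Set N) := by
  set m := Measure.hausdorffMeasure (n : ℝ) (univ : Set M) with hm
  set V := Measure.hausdorffMeasure (n : ℝ) (univ : Set N) with hV
  have hn0 : n ≠ 0 := hn.ne'
  obtain ⟨f₁, K₁, hf₁, hK₁, h₁⟩ := hinf 1 one_pos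
  have hsurj : ∀ f' : C(M, N), P f' → Function.Surjective f' := fun f' hf' => by
    obtain ⟨g, hg⟩ := hsec f' hf'
    exact surj_met hn f' g hg
  rcases isEmpty_or_nonempty N with hE | hne
  · have hEM : IsEmpty M := ⟨fun x => hE.false (f₁ x)⟩
    have hhom : IsHomeomorph f₁ := by
      rw [isHomeomorph_iff_continuous_bijective]
      exact ⟨f₁.continuous, fun x => hEM.elim x, fun y => hE.elim y⟩
    refine ⟨hhom.homeomorph, 0, ?_, ?_, ?_⟩
    · have : ((hhom.homeomorph : M ≃ₜ N) : C(M, N)) = f₁ := by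
        ext x
        rfl
      rw [this]
      exact hf₁
    · intro x
      exact hEM.elim x
    · have h1 : (univ : Set M) = ∅ := univ_eq_empty_iff.2 hEM
      have h2 : (univ : Set N) = ∅ := univ_eq_empty_iff.2 hE
      rw [hm, hV, h1, h2, measure_empty, measure_empty, mul_zero]
  -- finiteness and positivity of the volumes
  have hloc : IsLocallyFiniteMeasure (Measure.hausdorffMeasure (n : ℝ) : Measure N) := by
    refine ⟨fun y => ?_⟩
    obtain ⟨C, r₀, hr₀, h⟩ := hup y
    obtain ⟨r, hr, hrlt⟩ := exists_between hr₀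
    exact ⟨ball y r, ball_mem_nhds y hr, (h r hr hrlt).trans_lt ENNReal.ofReal_lt_top⟩
  have hVfin : V ≠ ⊤ := (isCompact_univ (X := N)).measure_lt_top.ne
  have hK₁0 : 0 < K₁ := by
    refine pos_iff_ne_zero.2 fun h0 => ?_
    obtain ⟨y⟩ := hne
    obtain ⟨y', hy'⟩ := exists_ne (n := n) hn y
    obtain ⟨x, hx⟩ := hsurj f₁ hf₁ y
    obtain ⟨x', hx'⟩ := hsurj f₁ hf₁ y'
    have h1 := hK₁.dist_le_mul x' x
    rw [h0, hx, hx', NNReal.coe_zero, zero_mul] at h1
    exact hy' (dist_le_zero.1 h1)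
  have hK₁n : (K₁ : ENNReal) ^ n ≠ 0 := pow_ne_zero n (ENNReal.coe_ne_zero.2 hK₁0.ne')
  have hmpos : m ≠ 0 := by
    obtain ⟨x, -⟩ := hsurj f₁ hf₁ hne.some
    obtain ⟨c, hc, r₀, hr₀, h⟩ := hlow x
    obtain ⟨r, hr, hrlt⟩ := exists_between hr₀
    have h3 : 0 < ENNReal.ofReal (c * r ^ n) := ENNReal.ofReal_pos.2 (by positivity)
    exact (h3.trans_le ((h r hr hrlt).trans (measure_mono (subset_univ _)))).ne'
  have hmfin : m ≠ ⊤ := by
    intro htop
    rw [htop, ENNReal.mul_top hK₁n] at h₁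
    exact (ENNReal.mul_ne_top ENNReal.ofReal_ne_top hVfin) (top_le_iff.1 h₁)
  have hVpos : V ≠ 0 := by
    intro h0
    rw [h0, mul_zero] at h₁
    exact (mul_ne_zero hK₁n hmpos) (le_zero_iff.1 h₁)
  obtain ⟨m', hm'⟩ : ∃ m' : NNReal, (m' : ENNReal) = m := ⟨m.toNNReal, ENNReal.coe_toNNReal hmfin⟩
  obtain ⟨V', hV'⟩ : ∃ V' : NNReal, (V' : ENNReal) = V := ⟨V.toNNReal, ENNReal.coe_toNNReal hVfin⟩
  have hm'0 : 0 < m' := by
    rw [pos_iff_ne_zero]
    rintro rfl
    exact hmpos (by rw [← hm', ENNReal.coe_zero])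
  have hV'0 : 0 < V' := by
    rw [pos_iff_ne_zero]
    rintro rfl
    exact hVpos (by rw [← hV', ENNReal.coe_zero])
  set K : NNReal := (V' / m') ^ ((n : ℝ)⁻¹) with hKdef
  have hKn : K ^ n = V' / m' := NNReal.rpow_inv_natCast_pow _ hn0
  have hK0 : 0 < K := by
    rw [pos_iff_ne_zero]
    intro h0
    rw [h0, zero_pow hn0] at hKn
    exact (div_pos hV'0 hm'0).ne hKn
  have hKm : (K : ENNReal) ^ n * m = V := by
    rw [← hm', ← hV', ← ENNReal.coe_pow, ← ENNReal.coe_mul, hKn, div_mul_cancel₀ _ hm'0.ne']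
  -- a minimizing sequence
  have hpos : ∀ i : ℕ, 0 < 1 / ((i : ℝ) + 1) := fun i => by positivity
  choose F L hF hL hFL using fun i : ℕ => hinf (1 / ((i : ℝ) + 1)) (hpos i)
  have hLK : ∀ i, (L i : ℝ) ≤ (1 + 1 / ((i : ℝ) + 1)) * K := by
    intro i
    have h1 : (1 : ℝ) ≤ 1 + 1 / ((i : ℝ) + 1) := by linarith [hpos i]
    have h2 := hFL i
    rw [← hm', ← hV', ← ENNReal.coe_pow, ← ENNReal.coe_mul] at h2
    have h3 := ENNReal.toReal_mono (ENNReal.mul_ne_top ENNReal.ofReal_ne_top ENNReal.coe_ne_top) h2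
    rw [ENNReal.toReal_mul, ENNReal.toReal_ofReal (by linarith), ENNReal.coe_toReal,
      ENNReal.coe_toReal, NNReal.coe_mul, NNReal.coe_pow] at h3
    have h4 : (K : ℝ) ^ n = V' / m' := by exact_mod_cast congrArg NNReal.toReal hKn
    have hm'' : (0 : ℝ) < m' := hm'0
    have h5 : (L i : ℝ) ^ n ≤ (1 + 1 / ((i : ℝ) + 1)) * K ^ n := by
      rw [h4, ← mul_div_assoc, le_div_iff₀ hm'']
      exact h3
    have h6 : (1 + 1 / ((i : ℝ) + 1)) * (K : ℝ) ^ n ≤ ((1 + 1 / ((i : ℝ) + 1)) * K) ^ n := by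
      rw [mul_pow]
      exact mul_le_mul_of_nonneg_right (le_self_pow₀ h1 hn0) (by positivity)
    exact le_of_pow_le_pow_left₀ hn0 (by positivity) (h5.trans h6)
  obtain ⟨f0, hf0, hclose⟩ := exists_limit (K := (K : ℝ)) K.coe_nonneg (fun i => ⇑(F i))
    (fun i : ℕ => 1 / ((i : ℝ) + 1)) tendsto_one_div_add_atTop_nhds_zero_nat
    (fun i => (hpos i).le) (fun i => by
      rw [div_le_one (by positivity)]
      linarith [(Nat.cast_nonneg i : (0 : ℝ) ≤ i)])
    (fun i x x' => ((hL i).dist_le_mul x x').trans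
      (mul_le_mul_of_nonneg_right (hLK i) dist_nonneg))
  have hf0L : LipschitzWith K f0 := LipschitzWith.of_dist_le_mul hf0
  let f₀ : C(M, N) := ⟨f0, hf0L.continuous⟩
  obtain ⟨η, hη, hcl⟩ := H815.close_homotopic (n := n) (N := N)
  obtain ⟨i, hi⟩ := hclose η hη
  have hhom : P f₀ := hP _ _ (hF i) (hcl M (F i) f₀ hi)
  obtain ⟨g, hg⟩ := hsec f₀ hhom
  have hh : IsHomeomorph f₀ :=
    hausdorff_metric hn f₀ g hg (K := K) hf0L hK0 hKm.le hlow hup
  refine ⟨hh.homeomorph, K, ?_, hf0L, hKm⟩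
  have : ((hh.homeomorph : M ≃ₜ N) : C(M, N)) = f₀ := by
    ext x
    rfl
  rw [this]
  exact hhom

/-- **(3)** either the class contains a homeomorphism or there is a gap -/
theorem homeo_or_gap [MetricSpace M] [CompactSpace M] [MeasurableSpace M] [BorelSpace M]
    [MetricSpace N] [CompactSpace N]
    [ChartedSpace (EuclideanSpace ℝ (Fin n)) N] [MeasurableSpace N] [BorelSpace N]
    (hn : 0 < n) (P : C(M, N) → Prop) (hP : SectionClass P)
    (hlow : LowerDensity n (Measure.hausdorffMeasure (n : ℝ) : Measure M))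
    (hup : UpperDensity n (Measure.hausdorffMeasure (n : ℝ) : Measure N)) :
    VolumeGap n P ∨
      ∃ (e : M ≃ₜ N) (K : NNReal), P (e : C(M, N)) ∧ LipschitzWith K e ∧
        (K : ENNReal) ^ n * Measure.hausdorffMeasure (n : ℝ) (univ : Set M) =
          Measure.hausdorffMeasure (n : ℝ) (univ : Set N) := by
  by_contra hcon
  rw [not_or] at hcon
  obtain ⟨hno, hgap⟩ := hcon
  refine hgap (gap hn P hP.1 hP.2 hlow hup fun ε hε => ?_)
  by_contra hcon
  push Not at hcon
  exact hno ⟨ε, hε, fun f K h1 h2 => hcon f K h1 h2⟩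

/-- **(4)** a metric on `M` with the volume of `N` as infimum characterizes the homotopy classes
which contain a homeomorphism -/
theorem iff_metric {M : Type u} {N : Type v} [TopologicalSpace M] [CompactSpace M]
    [MetricSpace N] [CompactSpace N]
    [ChartedSpace (EuclideanSpace ℝ (Fin n)) N] [MeasurableSpace N] [BorelSpace N]
    (hn : 0 < n) (P : C(M, N) → Prop) (hP : SectionClass P)
    (hlow : LowerDensity n (Measure.hausdorffMeasure (n : ℝ) : Measure N))
    (hup : UpperDensity n (Measure.hausdorffMeasure (n : ℝ) : Measure N)) :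
    (∃ e : M ≃ₜ N, P (e : C(M, N))) ↔
      ∃ (M' : Type v) (_ : MetricSpace M') (_ : MeasurableSpace M') (_ : BorelSpace M')
        (h : M' ≃ₜ M), LowerDensity n (Measure.hausdorffMeasure (n : ℝ) : Measure M') ∧
        ¬ VolumeGap n (fun F : C(M', N) => P (F.comp (h.symm : C(M, M')))) := by
  constructor
  · rintro ⟨e, he⟩
    refine ⟨N, inferInstance, inferInstance, inferInstance, e.symm, hlow, ?_⟩
    rintro ⟨ε, hε, H⟩
    have h1 := H (ContinuousMap.id N) 1 (by
      have : (ContinuousMap.id N).comp (e.symm.symm : C(M, N)) = (e : C(M, N)) := by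
        ext x
        simp
      show P ((ContinuousMap.id N).comp (e.symm.symm : C(M, N)))
      rw [this]
      exact he) LipschitzWith.id
    rw [ENNReal.coe_one, one_pow] at h1
    exact absurd h1 (not_lt.2 (mul_le_mul' (ENNReal.one_le_ofReal.2 (by linarith)) le_rfl))
  · rintro ⟨M', i1, i2, i3, h, hlow', hinf⟩
    haveI : CompactSpace M' := h.symm.compactSpace
    rcases homeo_or_gap (M := M') (N := N) hn
      (fun F => P (F.comp (h.symm : C(M, M'))))
      ⟨fun F F' hF hFF' => hP.1 _ _ hF (ContinuousMap.Homotopic.comp hFF'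
        (ContinuousMap.Homotopic.refl _)), fun F hF => by
        obtain ⟨g, hg⟩ := hP.2 _ hF
        refine ⟨(h.symm : C(M, M')).comp g, ?_⟩
        rwa [← ContinuousMap.comp_assoc]⟩
      hlow' hup with H | ⟨e, K, he, -⟩
    · exact absurd H hinf
    · exact ⟨h.symm.trans e, he⟩

end Three

end Vale.Agent.P260.R3.H149
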