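import Vale.Agent.P260.R3.H149.Meas
import Vale.Agent.P260.R3.H149.Pack
import Vale.Agent.P260.R3.H149.Lim
import Vale.Agent.P260.R3.H149.Defs

/-!
# P260: volume rigidity of Lipschitz maps with a homotopy section
-/

set_option autoImplicit false
set_option linter.all false

namespace Vale.Agent.P260.R3.H149

open Metric Set Topology MeasureTheory Filter
open Vale.Agent.P260

section Two

variable {M N : Type*} {n : ℕ}

/-- a map with a homotopy section onto a closed manifold is onto -/
theorem surj_met [TopologicalSpace M] [TopologicalSpace.MetrizableSpace M] [CompactSpace M]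
    [TopologicalSpace N] [T2Space N] [CompactSpace N]
    [ChartedSpace (EuclideanSpace ℝ (Fin n)) N] (hn : 0 < n) (f : C(M, N)) (g : C(N, M))
    (hfg : (f.comp g).Homotopic (ContinuousMap.id N)) : Function.Surjective f := by
  have hm' : TopologicalSpace.MetrizableSpace N := metrizable n N
  letI : MetricSpace M := TopologicalSpace.metrizableSpaceMetric M
  letI : MetricSpace N := TopologicalSpace.metrizableSpaceMetric N
  obtain ⟨H, hH, h0, h1⟩ := exists_line hfg
  exact surj_of_right_inv hn (charts (n := n) N) f.continuous g.continuous H hH h0 h1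

/-- **(1)** for topological manifolds -/
theorem measure_top [TopologicalSpace M] [TopologicalSpace.MetrizableSpace M] [CompactSpace M]
    [MeasurableSpace M] [BorelSpace M]
    [TopologicalSpace N] [T2Space N] [CompactSpace N]
    [ChartedSpace (EuclideanSpace ℝ (Fin n)) N] [MeasurableSpace N] [BorelSpace N]
    (hn : 0 < n) (f : C(M, N)) (g : C(N, M))
    (hfg : (f.comp g).Homotopic (ContinuousMap.id N))
    (μ : Measure M) (ν : Measure N) (hpos : ∀ U : Set M, IsOpen U → U.Nonempty → μ U ≠ 0)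
    (hle : ∀ A, IsCompact A → ν (f '' A) ≤ μ A) (htot : μ univ ≤ ν univ)
    (hfin : ν univ ≠ ⊤) : μ.map f = ν ∧ ∀ y, IsConnected (f ⁻¹' {y}) := by
  have hm' : TopologicalSpace.MetrizableSpace N := metrizable n N
  letI : MetricSpace M := TopologicalSpace.metrizableSpaceMetric M
  letI : MetricSpace N := TopologicalSpace.metrizableSpaceMetric N
  have : μ.IsOpenPosMeasure := ⟨hpos⟩
  obtain ⟨H, hH, h0, h1⟩ := exists_line hfg
  have hs := surj_met hn f g hfg
  refine ⟨map_eq f.continuous hs μ ν hle htot hfin, fun y => ⟨?_, ?_⟩⟩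
  · obtain ⟨x, hx⟩ := hs y
    exact ⟨x, hx⟩
  · exact fib_preconn hn (charts (n := n) N) f.continuous g.continuous H hH h0 h1 μ ν hle htot
      hfin y

theorem pos_of_low [MetricSpace M] [MeasurableSpace M] {μ : Measure M} (hlow : LowerDensity n μ) :
    ∀ U : Set M, IsOpen U → U.Nonempty → μ U ≠ 0 := by
  rintro U hU ⟨x, hx⟩
  obtain ⟨s, hs, hsU⟩ := Metric.isOpen_iff.1 hU x hx
  obtain ⟨c, hc, r₀, hr₀, h⟩ := hlow x
  obtain ⟨r, hr, hrlt⟩ := exists_between (lt_min hs hr₀)
  have h1 := h r hr (hrlt.trans_le (min_le_right _ _))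
  have h2 : μ (ball x r) ≤ μ U :=
    measure_mono ((ball_subset_ball (hrlt.trans_le (min_le_left _ _)).le).trans hsU)
  have h3 : 0 < ENNReal.ofReal (c * r ^ n) := ENNReal.ofReal_pos.2 (by positivity)
  exact (h3.trans_le (h1.trans h2)).ne'

theorem fin_of_up [MetricSpace N] [CompactSpace N] [MeasurableSpace N] {ν : Measure N}
    (hup : UpperDensity n ν) : ν univ ≠ ⊤ := by
  have hloc : IsLocallyFiniteMeasure ν := by
    refine ⟨fun y => ?_⟩
    obtain ⟨C, r₀, hr₀, h⟩ := hup y
    obtain ⟨r, hr, hrlt⟩ := exists_between hr₀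
    exact ⟨ball y r, ball_mem_nhds y hr, (h r hr hrlt).trans_lt ENNReal.ofReal_lt_top⟩
  exact (isCompact_univ (X := N)).measure_lt_top.ne

/-- **(2)** for metric manifolds -/
theorem measure_metric [MetricSpace M] [CompactSpace M] [MeasurableSpace M] [BorelSpace M]
    [MetricSpace N] [CompactSpace N]
    [ChartedSpace (EuclideanSpace ℝ (Fin n)) N] [MeasurableSpace N] [BorelSpace N]
    (hn : 0 < n) (f : C(M, N)) (g : C(N, M))
    (hfg : (f.comp g).Homotopic (ContinuousMap.id N))
    (μ : Measure M) (ν : Measure N)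
    (hle : ∀ A, IsCompact A → ν (f '' A) ≤ μ A) (htot : μ univ ≤ ν univ)
    {K α : NNReal} (hα : (n : ℝ) < n * α + 1) (hα0 : 0 < α) (hf : HolderWith K α f)
    (hlow : LowerDensity n μ) (hup : UpperDensity n ν) : IsHomeomorph f := by
  have hpos : ∀ U : Set M, IsOpen U → U.Nonempty → μ U ≠ 0 := by
    rintro U hU ⟨x, hx⟩
    obtain ⟨s, hs, hsU⟩ := Metric.isOpen_iff.1 hU x hx
    obtain ⟨c, hc, r₀, hr₀, h⟩ := hlow x
    obtain ⟨r, hr, hrlt⟩ := exists_between (lt_min hs hr₀)
    have h1 := h r hr (hrlt.trans_le (min_le_right _ _))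
    have h2 : μ (ball x r) ≤ μ U :=
      measure_mono ((ball_subset_ball (hrlt.trans_le (min_le_left _ _)).le).trans hsU)
    have h3 : 0 < ENNReal.ofReal (c * r ^ n) := ENNReal.ofReal_pos.2 (by positivity)
    exact (h3.trans_le (h1.trans h2)).ne'
  have hloc : IsLocallyFiniteMeasure ν := by
    refine ⟨fun y => ?_⟩
    obtain ⟨C, r₀, hr₀, h⟩ := hup y
    obtain ⟨r, hr, hrlt⟩ := exists_between hr₀
    exact ⟨ball y r, ball_mem_nhds y hr, (h r hr hrlt).trans_lt ENNReal.ofReal_lt_top⟩
  have hfin : ν univ ≠ ⊤ := (isCompact_univ (X := N)).measure_lt_top.ne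
  obtain ⟨hmap, hconn⟩ := measure_top hn f g hfg μ ν hpos hle htot hfin
  rw [isHomeomorph_iff_continuous_bijective]
  refine ⟨f.continuous, fun a b hab => ?_, surj_met hn f g hfg⟩
  refine sub_of_density (n := n) μ (fun x x' => hf.dist_le x x') hα hα0
    (hconn (f b)).isPreconnected (fun x _ => hlow x) ?_ hab rfl
  obtain ⟨C, r₀, hr₀, h⟩ := hup (f b)
  refine ⟨C, r₀, hr₀, fun r hr hrlt => ?_⟩
  rw [← Measure.map_apply f.continuous.measurable isOpen_ball.measurableSet, hmap]
  exact h r hr hrlt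

/-- **(2')** Hausdorff measures -/
theorem hausdorff_metric [MetricSpace M] [CompactSpace M] [MeasurableSpace M] [BorelSpace M]
    [MetricSpace N] [CompactSpace N]
    [ChartedSpace (EuclideanSpace ℝ (Fin n)) N] [MeasurableSpace N] [BorelSpace N]
    (hn : 0 < n) (f : C(M, N)) (g : C(N, M))
    (hfg : (f.comp g).Homotopic (ContinuousMap.id N))
    {K : NNReal} (hf : LipschitzWith K f) (hK : 0 < K)
    (htot : (K : ENNReal) ^ n * Measure.hausdorffMeasure (n : ℝ) (univ : Set M) ≤
      Measure.hausdorffMeasure (n : ℝ) (univ : Set N))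
    (hlow : LowerDensity n (Measure.hausdorffMeasure (n : ℝ) : Measure M))
    (hup : UpperDensity n (Measure.hausdorffMeasure (n : ℝ) : Measure N)) :
    IsHomeomorph f := by
  refine measure_metric hn f g hfg ((K : ENNReal) ^ n • Measure.hausdorffMeasure (n : ℝ))
    (Measure.hausdorffMeasure (n : ℝ)) (fun A _ => ?_) ?_ (α := 1) (by simp) one_pos
    (holderWith_one.2 hf) (fun x => ?_) hup
  · have h1 := hf.hausdorffMeasure_image_le (d := (n : ℝ)) (Nat.cast_nonneg n) A
    rw [ENNReal.rpow_natCast] at h1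
    rw [Measure.smul_apply, smul_eq_mul]
    exact h1
  · rw [Measure.smul_apply, smul_eq_mul]
    exact htot
  · obtain ⟨c, hc, r₀, hr₀, h⟩ := hlow x
    have hK' : (0 : ℝ) < K := hK
    refine ⟨(K : ℝ) ^ n * c, by positivity, r₀, hr₀, fun r hr hrlt => ?_⟩
    rw [Measure.smul_apply, smul_eq_mul, mul_assoc, ENNReal.ofReal_mul (by positivity),
      ENNReal.ofReal_pow K.coe_nonneg, ENNReal.ofReal_coe_nnreal]
    gcongr
    exact h r hr hrlt

end Two

end Vale.Agent.P260.R3.H149
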