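import Vale.Agent.P260.R3.H149.Side
import Mathlib.MeasureTheory.Measure.Regular
import Mathlib.MeasureTheory.Measure.OpenPos

/-!
# P260: maps of degree one which do not increase volume have connected fibres
-/

set_option autoImplicit false
set_option linter.all false

namespace Vale.Agent.P260.R3.H149

open Metric Set Topology MeasureTheory
open Vale.Agent.P239.M Vale.Agent.P260

/-- a surjection that does not increase volume, with total volumes the right way round, preserves
the measure -/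
theorem map_eq {M N : Type*} [TopologicalSpace M] [CompactSpace M] [MetricSpace N]
    [MeasurableSpace M] [BorelSpace M] [MeasurableSpace N] [BorelSpace N] {f : M → N}
    (hf : Continuous f) (hs : Function.Surjective f) (μ : Measure M) (ν : Measure N)
    (hle : ∀ A, IsCompact A → ν (f '' A) ≤ μ A) (htot : μ univ ≤ ν univ)
    (hfin : ν univ ≠ ⊤) : μ.map f = ν := by
  have hνf : IsFiniteMeasure ν := ⟨lt_top_iff_ne_top.2 hfin⟩
  have hc : ∀ F : Set N, IsClosed F → ν F ≤ μ (f ⁻¹' F) := by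
    intro F hF
    have h1 := hle (f ⁻¹' F) (hF.preimage hf).isCompact
    rwa [image_preimage_eq F hs] at h1
  have hle' : ν ≤ μ.map f := by
    rw [Measure.le_iff]
    intro B hB
    rw [Measure.map_apply hf.measurable hB, hB.measure_eq_iSup_isClosed_of_ne_top (measure_ne_top ν B)]
    refine iSup₂_le fun F hFB => iSup_le fun hF => ?_
    exact (hc F hF).trans (measure_mono (preimage_mono hFB))
  have huniv : ν univ = (μ.map f) univ := by
    refine le_antisymm (hle' univ) ?_
    rw [Measure.map_apply hf.measurable MeasurableSet.univ, preimage_univ]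
    exact htot
  have hμf : IsFiniteMeasure (μ.map f) := ⟨by rw [← huniv]; exact lt_top_iff_ne_top.2 hfin⟩
  exact (Measure.eq_of_le_of_measure_univ_eq hle' huniv).symm

/-- **Connectedness of the fibres.** -/
theorem fib_preconn {M N : Type*} [MetricSpace M] [MetricSpace N] {n : ℕ} [CompactSpace M]
    [CompactSpace N] (hn : 0 < n)
    (hchN : ∀ x : N, ∃ β : (Fin n → ℝ) → N, IsOpenEmbedding β ∧ β 0 = x)
    {f : M → N} (hf : Continuous f) {g : N → M} (hg : Continuous g) (H : ℝ → N → N)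
    (hH : Continuous (fun p : ℝ × N => H p.1 p.2)) (h0 : H 0 = f ∘ g) (h1 : H 1 = id)
    [MeasurableSpace M] [BorelSpace M] [MeasurableSpace N] [BorelSpace N]
    (μ : Measure M) (ν : Measure N) [μ.IsOpenPosMeasure]
    (hle : ∀ A, IsCompact A → ν (f '' A) ≤ μ A) (htot : μ univ ≤ ν univ)
    (hfin : ν univ ≠ ⊤) (y₀ : N) : IsPreconnected (f ⁻¹' {y₀}) := by
  have hs : Function.Surjective f := surj_of_right_inv hn hchN hf hg H hH h0 h1
  have hmap := map_eq hf hs μ ν hle htot hfin
  have hνf : IsFiniteMeasure ν := ⟨lt_top_iff_ne_top.2 hfin⟩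
  rw [isPreconnected_closed_iff]
  intro t t' ht ht' htt hnt hnt'
  by_contra hemp
  rw [not_nonempty_iff_eq_empty] at hemp
  have hFc : IsCompact (f ⁻¹' {y₀}) := (isClosed_singleton.preimage hf).isCompact
  have hdF : Disjoint (f ⁻¹' {y₀} ∩ t) (f ⁻¹' {y₀} ∩ t') := by
    rw [disjoint_left]
    rintro x ⟨h1, h2⟩ ⟨-, h3⟩
    have : x ∈ f ⁻¹' {y₀} ∩ (t ∩ t') := ⟨h1, h2, h3⟩
    rw [hemp] at this
    exact this
  obtain ⟨O, O', hO, hO', hd, hFO, hFO', ρ, hρ, hfar, hone⟩ := one_onto hn hchN hf hg H hH h0 h1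
    (hFc.inter_right ht) (hFc.inter_right ht') hdF
    (by rw [← inter_union_distrib_left, inter_eq_left.2 htt])
  -- the main point
  have key : ∀ O O' : Set M, IsOpen O → IsOpen O' → Disjoint O O' →
      (f ⁻¹' {y₀} ∩ O').Nonempty → (∀ x, dist (f x) y₀ < ρ → x ∈ O ∪ O') →
      (∀ y, dist y y₀ < ρ → ∃ x ∈ O, f x = y) → False := by
    intro O O' hO hO' hd hne hfar hon
    obtain ⟨x₀, hx₀, hxO⟩ := hne
    have hx₀' : f x₀ = y₀ := hx₀
    let D : Set N := closedBall y₀ (ρ / 2)
    have hρ2 : 0 < ρ / 2 := by linarith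
    have hD : IsClosed D := isClosed_closedBall
    have hDρ : ∀ y ∈ D, dist y y₀ < ρ := fun y hy => (mem_closedBall.1 hy).trans_lt (by linarith)
    have hC : IsCompact (f ⁻¹' D \ O') := ((hD.preimage hf).sdiff hO').isCompact
    have himg : f '' (f ⁻¹' D \ O') = D := by
      refine Subset.antisymm ?_ ?_
      · rintro _ ⟨x, ⟨hx, -⟩, rfl⟩
        exact hx
      · intro y hy
        obtain ⟨x, hx, hxy⟩ := hon y (hDρ y hy)
        refine ⟨x, ⟨?_, fun h => disjoint_left.1 hd hx h⟩, hxy⟩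
        show f x ∈ D
        rw [hxy]
        exact hy
    have hle1 := hle _ hC
    rw [himg] at hle1
    have hmapD : ν D = μ (f ⁻¹' D) := by
      rw [← hmap, Measure.map_apply hf.measurable hD.measurableSet]
    have hsplit : μ (f ⁻¹' D ∩ O') + μ (f ⁻¹' D \ O') = μ (f ⁻¹' D) :=
      measure_inter_add_diff _ hO'.measurableSet
    have hsub : O' ∩ f ⁻¹' ball y₀ (ρ / 2) ⊆ f ⁻¹' D ∩ O' := fun x hx =>
      ⟨ball_subset_closedBall hx.2, hx.1⟩
    have hx₀b : x₀ ∈ O' ∩ f ⁻¹' ball y₀ (ρ / 2) := by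
      refine ⟨hxO, ?_⟩
      rw [mem_preimage, hx₀']
      exact mem_ball_self hρ2
    have hpos : 0 < μ (f ⁻¹' D ∩ O') :=
      (IsOpen.measure_pos μ (hO'.inter (isOpen_ball.preimage hf)) ⟨x₀, hx₀b⟩).trans_le
        (measure_mono hsub)
    have hfinD : ν D ≠ ⊤ := measure_ne_top ν D
    have h2 : μ (f ⁻¹' D ∩ O') + ν D ≤ 0 + ν D := by
      rw [zero_add]
      calc μ (f ⁻¹' D ∩ O') + ν D ≤ μ (f ⁻¹' D ∩ O') + μ (f ⁻¹' D \ O') := by gcongr
        _ = ν D := by rw [hsplit, hmapD]
    have h3 := (ENNReal.add_le_add_iff_right hfinD).1 h2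
    exact absurd h3 (not_le.2 hpos)
  rcases hone with h | h
  · obtain ⟨x, hx⟩ := hnt'
    exact key O O' hO hO' hd ⟨x, hx.1, hFO' hx⟩ hfar h
  · obtain ⟨x, hx⟩ := hnt
    exact key O' O hO' hO hd.symm ⟨x, hx.1, hFO hx⟩ (fun x hx => (hfar x hx).symm) h

end Vale.Agent.P260.R3.H149
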