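import Vale.Agent.P260.Top

/-!
# P260: one side of a disconnected fibre is onto
-/

set_option autoImplicit false
set_option linter.all false

namespace Vale.Agent.P260.R3.H149

open Metric Set Topology
open Vale.Agent.P239.M Vale.Agent.P260

/-- Near a fibre which is the union of two disjoint compact sets the preimage splits into two open
sides, and one of them is mapped onto a ball. -/
theorem one_onto {M N : Type*} [MetricSpace M] [MetricSpace N] {n : ℕ} [CompactSpace M]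
    [CompactSpace N] (hn : 0 < n)
    (hchN : ∀ x : N, ∃ β : (Fin n → ℝ) → N, IsOpenEmbedding β ∧ β 0 = x)
    {f : M → N} (hf : Continuous f) {g : N → M} (hg : Continuous g) (H : ℝ → N → N)
    (hH : Continuous (fun p : ℝ × N => H p.1 p.2)) (h0 : H 0 = f ∘ g) (h1 : H 1 = id)
    {y₀ : N} {F₁ F₂ : Set M} (hF1 : IsCompact F₁) (hF2 : IsCompact F₂) (hd : Disjoint F₁ F₂)
    (hF : f ⁻¹' {y₀} = F₁ ∪ F₂) :
    ∃ O O' : Set M, IsOpen O ∧ IsOpen O' ∧ Disjoint O O' ∧ F₁ ⊆ O ∧ F₂ ⊆ O' ∧ ∃ ρ > 0,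
      (∀ x, dist (f x) y₀ < ρ → x ∈ O ∪ O') ∧
      ((∀ y, dist y y₀ < ρ → ∃ x ∈ O, f x = y) ∨ (∀ y, dist y y₀ < ρ → ∃ x ∈ O', f x = y)) := by
  classical
  obtain ⟨O, B, O', B', r, ρ, S, hFO, hFO'⟩ := exists_side hf hF1 hF2 hd hF
  have hfu : UniformContinuous f := CompactSpace.uniformContinuous_of_continuous hf
  obtain ⟨β, hβ, hβ0⟩ := hchN y₀
  have hy₀ : y₀ ∈ β '' Q n 2 := ⟨0, mem_closedBall_self (by norm_num), hβ0⟩
  have htot := exists_tot hn hchN hf hg H hH h0 h1 hβ hy₀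
  obtain ⟨κa, hκa, hadd⟩ := side_add hfu S hn hβ hy₀
  have hpig : (∀ δ > 0, ∃ c : Ch (ZMod 2) M, Cyc n δ c ∧ Dg f β y₀ B c = 1) ∨
      (∀ δ > 0, ∃ c : Ch (ZMod 2) M, Cyc n δ c ∧ Dg f β y₀ B' c = 1) := by
    by_contra hcon
    push Not at hcon
    obtain ⟨⟨δ₁, hδ₁, h1⟩, δ₂, hδ₂, h2⟩ := hcon
    obtain ⟨c, hc, hdc⟩ := htot (min κa (min δ₁ δ₂)) (lt_min hκa (lt_min hδ₁ hδ₂))
    have e1 := h1 c (hc.mono ((min_le_right _ _).trans (min_le_left _ _)))
    have e2 := h2 c (hc.mono ((min_le_right _ _).trans (min_le_right _ _)))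
    have e3 := hadd c (hc.mono (min_le_left _ _))
    rw [hdc] at e3
    have key : ∀ a b : ZMod 2, a ≠ 1 → b ≠ 1 → 1 = a + b → False := by decide
    exact key _ _ e1 e2 e3
  have hfar : ∀ x, dist (f x) y₀ < ρ → x ∈ O ∪ O' := by
    intro x hx
    by_contra hcon
    rw [mem_union, not_or] at hcon
    exact absurd (S.far x hcon.1 hcon.2) (not_le.2 hx)
  have hdO : Disjoint O O' := S.disj.mono S.OB S.symm.OB
  rcases hpig with h | h
  · obtain ⟨r₁, hr₁, h1⟩ := side_onto hf S hn hβ hy₀ h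
    refine ⟨O, O', S.oO, S.oO', hdO, hFO, hFO', min r₁ ρ, lt_min hr₁ S.hρ,
      fun x hx => hfar x (hx.trans_le (min_le_right _ _)),
      Or.inl fun y hy => h1 y (hy.trans_le (min_le_left _ _))⟩
  · obtain ⟨r₁, hr₁, h1⟩ := side_onto hf S.symm hn hβ hy₀ h
    refine ⟨O, O', S.oO, S.oO', hdO, hFO, hFO', min r₁ ρ, lt_min hr₁ S.hρ,
      fun x hx => hfar x (hx.trans_le (min_le_right _ _)),
      Or.inr fun y hy => h1 y (hy.trans_le (min_le_left _ _))⟩

end Vale.Agent.P260.R3.H149
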